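import Crest.Agent.X212.Sb67.Ar

/-!
# Row 212, SB-WIN (helper67): the windows in the form `St29.Sb.Wi1`
-/

set_option autoImplicit false
set_option linter.unusedSectionVars false
noncomputable section
open scoped Manifold ContDiff Topology InnerProductSpace
open MeasureTheory Set Function Filter Classical

namespace Crest.Agent.X212.Sb67
open An An.Job M Nd18 Fin37 Nka63 G75 Jb7 Ins26
open Dgr80 (LB)

variable {κ lam : Type} [Fintype κ] [Fintype lam] [DecidableEq lam]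

section job
variable {Wi : Type} {X : Mf 4} {A : Type} [Fintype A] {M : Mark X A κ} {W : World M} {N : ML M lam}
  {Λ : Lns W N} {A' h : Type} [Fintype A'] [DecidableEq A'] [Fintype h] {r n : ℕ}
  {J : Job Wi Λ A' h r n} {c : M.Cl}

/-- the text of `St29.Sb.Wi1` -/
def W1 (x : A) (e : Bool) (y : J.Obc c) : Prop :=
  ∃ (hx : Act J.m c x none (J.Θ y.s)) (s : ℝ), 10 ≤ s ∧ s + 11 ≤ nl ((J.Θ y.s).2 x) ∧
    (bif e then nl ((J.Θ y.s).2 x) / 2 < s else s + 1 < nl ((J.Θ y.s).2 x) / 2) ∧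
    ∀ γ, (∀ z ∈ O (nk J ⟨(x, none), hx⟩) 2, ‖y.x.Φ z‖ ^ 2 ≤ γ) →
      LB ((J.G c y.s).F.μ.restrict ((nk J ⟨(x, none), hx⟩).tm ⁻¹' Icc s (s + 1)))
        (fun z => ‖y.x.m.Fg (J.G c y.s).F y.x.W z‖ ^ 2) (192 * γ ^ 2 * vY (J.xs x).D + 44)

theorem Wn.w1 (hJ : J.OK) {x : A} {e : Bool} {y : J.Obc c} {ha : Act J.m c x none (J.Θ y.s)} {s T : ℝ}
    (w : Wn y ⟨(x, none), ha⟩ 10 1 1 s) (hT : (J.Θ y.s).2 x = T)
    (k : bif e then nl T / 2 < s else s + 1 < nl T / 2) : W1 x e y :=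
  have m := w.mem hJ zero_le_one
  ⟨ha, s, m.1, by linarith [m.2], hT ▸ k, fun γ hγ => (w.F γ fun z hz =>
    hγ z (Dp_sub_Dq (by norm_num) (w.dp hz))).le (by rw [mul_one, mul_one])⟩

end job

variable {Lm : LM κ lam} {y : G75.YD κ lam} {S : Scene Lm} {t : TD y S} {c : Cn S.L S.A} {R : ℕ}

theorem w1P (hy : y.OK) (ht : t.OK R c) (hS : S.OK) (N n D d m k) : ∀ᶠ T in 𝓝[<] (1 : ℝ),
    ∀ F : Pr t N n D, F.OK c d T → ∀ i σ τ e, c i σ ≠ 0 → τ ⊆ σ →
      (An.Sml fun Adm => ELM (F.J c d i m k) Adm ∧ CHH (F.J c d i m k) Adm) → An.Sml fun Adm =>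
        ∀ q (z : (F.J c d i m k).Obc e), Adm q → Sol (cel τ none) q z →
          W1 t.h true z ∧ W1 t.b false z := by
  filter_upwards [wdP N n D d m k hy ht hS id (d₀ := 10) (by norm_num) one_pos]
    with T w F hF i σ τ e h1 h2 inp
  have hi : c i ≠ 0 := fun u => h1 (congrFun u σ)
  refine ((w F hF i hi).and inp).mono fun Adm ⟨w, el, ch⟩ q z hq K => ?_
  obtain ⟨-, s, w⟩ := w el ch _ ⟨τ, none, σ, rfl, by simp, h1, h2⟩ e q z hq K
  exact ⟨(w.wn true).w1 (hF.J i hi m k).1 (w.T true) (w.half true),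
    (w.wn false).w1 (hF.J i hi m k).1 (w.T false) (w.half false)⟩

end Crest.Agent.X212.Sb67
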