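import Crest.Agent.X212.Sb67.Win
import Crest.Agent.X212.Dgr80.Fen

/-!
# Row 212, SB-WIN (helper67): the windows on `h` and `b` in arc length
-/

set_option autoImplicit false
set_option linter.unusedSectionVars false
noncomputable section
open scoped Manifold ContDiff Topology InnerProductSpace
open MeasureTheory Set Function Filter Classical

namespace Crest.Agent.X212.Sb67
open An An.Job M Nd18 Fin37 Nka63
open Dgr80 (LB en)
open Cht98 (hZ)

/-- the step on `[s, s + 1]` -/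
def stp (b : Bool) (s r : ℝ) : ℝ := Real.smoothTransition (bif b then r - s else s + 1 - r)

/-- its bounds -/
def cS : ℕ → ℝ := bd_st.choose

theorem bd_stp (b : Bool) (s : ℝ) : BD (stp b s) cS := by
  cases b
  exacts [bd_st.choose_spec.refl (s + 1), bd_st.choose_spec.shift (-s)]

theorem stp_lo (b : Bool) {s r : ℝ} (h : r ≤ s) : stp b s r = bif b then 0 else 1 := by
  cases b
  exacts [Real.smoothTransition.one_of_one_le (show 1 ≤ s + 1 - r by linarith),
    Real.smoothTransition.zero_of_nonpos (show r - s ≤ 0 by linarith)]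

theorem stp_hi (b : Bool) {s r : ℝ} (h : s + 1 ≤ r) : stp b s r = bif b then 1 else 0 := by
  cases b
  exacts [Real.smoothTransition.zero_of_nonpos (show s + 1 - r ≤ 0 by linarith),
    Real.smoothTransition.one_of_one_le (show 1 ≤ r - s by linarith)]

theorem stp_mem (b : Bool) (s r : ℝ) : stp b s r ∈ Icc (0 : ℝ) 1 :=
  ⟨Real.smoothTransition.nonneg _, Real.smoothTransition.le_one _⟩

theorem stp_bd (b : Bool) (s r : ℝ) : |deriv (stp b s) r| ≤ cS 1 := by
  simpa using (bd_stp b s).2 1 1 le_rfl r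

section mid
variable {κ : Type} [Fintype κ] {X X' : Mf 4} {A A' A₀ : Type} [Fintype A] [Fintype A'] [Fintype A₀]
  {M : Mark X A κ} {M' : Mark X' A' κ} (I : MId M M' A₀)

theorem vol_mid {x : A₀} {a : A} {a' : A'} (e : I.f x = a) (e' : I.f' x = a') :
    (M'.gY a').μ.real univ = (M.gY a).μ.real univ := by
  subst e e'
  have k := (Met55.iso_vol (φ := (I.g x).toHomeomorph.toOpenPartialHomeomorph) (M.gvol _) (M'.gvol _)
    (I.g x).contMDiff.contMDiffOn (I.g x).symm.contMDiff.contMDiffOn fun k y _ => I.gY x k y).μ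
  simp only [Homeomorph.toOpenPartialHomeomorph_source, Homeomorph.toOpenPartialHomeomorph_target,
    Measure.restrict_univ] at k
  exact congrArg ENNReal.toReal ((DFunLike.congr_fun k univ).symm.trans
    (Measure.map_apply (I.g x).continuous.measurable .univ))

theorem band_sub {x x' : A₀} {a b : A} {a' b' : A'} (e : I.f x = a) (e' : I.f' x = a')
    (k : I.f x' = b) (k' : I.f' x' = b') {u : Bool} (h : (M.sys.w a).band ⊆ (M.sys.w b).sd u) :
    (M'.sys.w a').band ⊆ (M'.sys.w b').sd u := by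
  subst e e' k k'
  rintro _ ⟨⟨y, s⟩, rfl⟩
  obtain ⟨y, rfl⟩ := (I.g x).surjective y
  exact I.jj x (y, s) ▸ (I.sd x' u _ (I.sub x ⟨_, rfl⟩)).2 (h ⟨_, rfl⟩)

end mid

section job
variable {Wi : Type} {X : Mf 4} {A κ lam : Type} [Fintype A] [Fintype κ] [Fintype lam]
  [DecidableEq lam] {M : Mark X A κ} {W : World M} {N : ML M lam}
  {Λ : Lns W N} {A' h : Type} [Fintype A'] [DecidableEq A'] [Fintype h] {r n : ℕ}
  {J : Job Wi Λ A' h r n} {c : M.Cl} {p : A' → ℝ} {x : A}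

/-- windows in arc length -/
theorem ar_eq (hJ : J.OK) (ha : Act J.m c x none (J.Θ p)) {s s' : ℝ} (h0 : 0 < s)
    (h1 : s' < nl ((J.Θ p).2 x)) : (fun z => len ((J.Θ p).2 x) false (hZ W.toCaps c x z)) ⁻¹' Icc s s' =
      (nk J ⟨(x, none), ha⟩).tm ⁻¹' Icc s s' := by
  have k := hJ.nk c x none _ ha
  have t1 : (J.Θ p).2 x < 1 := ha.2.2.1 x ha.2.2.2.2.1
  have m := fun {u v : ℝ} => (strictMonoOn_len ((J.Θ p).2 x) false).lt_iff_lt (a := u) (b := v)
    (.inl t1) (.inl t1)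
  have e : ∀ z ∈ (nk J ⟨(x, none), ha⟩).ψ.target, (nk J ⟨(x, none), ha⟩).tm z = _ :=
    fun z hz => Cht98.isNk_tm ha k hz
  ext z
  refine ⟨fun hz => (congrArg (· ∈ Icc s s') (e z ?_)).ge hz,
    fun hz => (congrArg (· ∈ Icc s s') (e z ?_)).le hz⟩
  · rw [Cht98.isNk_target ha k]
    exact ⟨⟨m.1 ((len_pm _ false).trans_lt (h0.trans_le hz.1)), m.1 (hz.2.trans_lt h1)⟩, .inl t1⟩
  · rw [Nk.tgt, show (nk J ⟨(x, none), ha⟩).p = _ from k.lo, show (nk J ⟨(x, none), ha⟩).q = _ from k.hi]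
    exact ⟨fun a u => by
      obtain rfl : 0 = a := by simpa using u
      exact h0.trans_le hz.1, fun a u => by
      obtain rfl : nl ((J.Θ p).2 x) = a := by simpa using u
      exact hz.2.trans_lt h1⟩

theorem Wn.mem (hJ : J.OK) {y : J.Obc c} {ha : Act J.m c x none (J.Θ y.s)} {d ℓ η s : ℝ}
    (w : Wn y ⟨(x, none), ha⟩ d ℓ η s) (hℓ : 0 ≤ ℓ) : d ≤ s ∧ s + ℓ ≤ nl ((J.Θ y.s).2 x) - d :=
  have k := hJ.nk c x none _ ha
  ⟨(zero_add d).ge.trans ((w.dp (left_mem_Icc.2 (by linarith))).1 0 k.lo),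
    (w.dp (right_mem_Icc.2 (by linarith))).2 _ k.hi⟩

end job

open G75 Jb7 Ins26
open Br55 (CN)

variable {κ lam : Type} [Fintype κ] [Fintype lam] [DecidableEq lam] {Lm : LM κ lam}
  {y : G75.YD κ lam} {S : Scene Lm} {t : TD y S} {N : ND (yY y).M (lam ⊕ lam)} {n : ℕ} {D : S.Dat}
  {F : Pr t N n D} {c : Cn S.L S.A} {d m R : ℕ} {i : S.L} {k : Fin (n + 1)} {T : ℝ}

variable (t) in
/-- the walls of the windows (`Sb84.wl`) -/
abbrev wl (e : Bool) : S.A := bif e then t.h else t.b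

theorem wl_fz (ht : t.OK R c) (e : Bool) : wl t e ∈ S.fz := by
  cases e
  exacts [ht.fz.2.2.1, ht.fz.2.1]

theorem wl_ne (hy : y.OK) (ht : t.OK R c) (e : Bool) : wl t e ≠ t.a := fun u => by
  have := y.M.con
  have f := congrFun ht.hf0.1
  have f' := congrFun ht.hf0.2
  obtain ⟨z, hz, -⟩ := (S.M.sys.w t.a).ne false
  cases e
  · exact (S.M.sys.w t.s).not_mem_sd (band_sub t.IH (f 0) (f' 0) (f 2) (f' 2) (fun _ v =>
      Wall.nest hy.hs.1 hy.hs.2 hy.rev.2.1 (.inl (hy.rev.1 v))) hz)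
      (ht.ord.1 ((show t.b = t.a from u).symm ▸ hz))
  · exact absurd (t.IH.f'.injective ((f' 1).trans ((show t.h = t.a from u).trans (f' 0).symm)))
      (by decide)

variable (y) in
/-- the volumes of `Y_h` and `Y_b` -/
def v0 : ℝ := (y.M.gY y.h).μ.real univ + (y.M.gY y.b).μ.real univ

theorem vY_wl (hy : y.OK) (ht : t.OK R c) (e : Bool) :
    vY ((F.J c d i m k).xs (wl t e)).D ≤ v0 y := by
  rw [show (F.J c d i m k).xs _ = _ from F.xs_ne i (wl_ne hy ht e)]
  cases e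
  · exact (vol_mid t.IT ht.tf0.1 ht.tf0.2).trans_le (le_add_of_nonneg_left measureReal_nonneg)
  · exact (vol_mid t.IH (congrFun ht.hf0.1 1) (congrFun ht.hf0.2 1)).trans_le
      (le_add_of_nonneg_right measureReal_nonneg)

variable {e : S.M.Cl} (z : (F.J c d i m k).Obc e)

/-- the arc length along the neck of the window (`Sb84.ar`) -/
abbrev aw (b : Bool) (x : (D.W.Z e).M) : ℝ :=
  len ((F.Θ z.s).2 (wl t b)) false (hZ D.W.toCaps e (wl t b) x)

/-- **the windows** `[s b, s b + 1]` on `h` (`b = true`) and `b`; `u b` is the half -/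
structure Wds (u : Bool → Bool) (d₀ η : ℝ) (s : Bool → ℝ) : Prop where
  T : ∀ b, (F.Θ z.s).2 (wl t b) = F.T
  act : ∀ b, Act F.m e (wl t b) none (F.Θ z.s)
  wn : ∀ b, Wn z ⟨(wl t b, none), act b⟩ d₀ 1 η (s b)
  half : ∀ b, bif u b then nl F.T / 2 < s b else s b + 1 < nl F.T / 2
  s0 : ∀ b, 0 < s b
  s1 : ∀ b, s b + 1 < nl ((F.Θ z.s).2 (wl t b))
  eq : ∀ b, aw z b ⁻¹' Icc (s b) (s b + 1) =
    (nk (F.J c d i m k) ⟨(wl t b, none), act b⟩).tm ⁻¹' Icc (s b) (s b + 1)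
  F : ∀ γ, (∀ b x, aw z b x ∈ Icc (s b) (s b + 1) → ‖z.x.Φ x‖ ^ 2 ≤ γ) →
    LB (((F.J c d i m k).G e z.s).F.μ.restrict (⋃ b, aw z b ⁻¹' Icc (s b) (s b + 1)))
      (fun x => ‖z.x.m.Fg ((F.J c d i m k).G e z.s).F z.x.W x‖ ^ 2) (384 * v0 y * γ ^ 2 + 88 * η)

variable (N n D d m k) in
/-- **the window clause of `Sb84.AnAt`** -/
theorem wdP (hy : y.OK) (ht : t.OK R c) (hS : S.OK) (u : Bool → Bool) {d₀ η : ℝ} (hd : 4 ≤ d₀)
    (η0 : 0 < η) : ∀ᶠ T in 𝓝[<] (1 : ℝ), ∀ F : Pr t N n D, F.OK c d T → ∀ i, c i ≠ 0 →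
      An.Sml fun Adm => ELM (F.J c d i m k) Adm → CHH (F.J c d i m k) Adm → ∀ σ ∈ cls c i, ∀ e q
        (z : (F.J c d i m k).Obc e), Adm q → Sol σ q z → FS _ η q z ∧ ∃ s, Wds z u d₀ η s := by
  filter_upwards [winP t N n D c d m k hS ht.fz.1 hd zero_le_one η0] with T w F hF i hi
  have hJ := (hF.J i hi m k).1
  refine (w F hF i hi).mono fun Adm w el ch σ hσ e q z hq K => ?_
  obtain ⟨f, w⟩ := w (Dgr80.fen hJ el) ch σ hσ e q z hq K
  choose ha w using fun b => w _ (wl_fz ht b) (wl_ne hy ht b)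
  choose s w1 w2 using fun b => w b (u b)
  have s0 : ∀ b, 0 < s b := fun b => by linarith [((w1 b).mem hJ zero_le_one).1]
  have s1 : ∀ b, s b + 1 < nl ((F.Θ z.s).2 (wl t b)) := fun b =>
    ((w1 b).mem hJ zero_le_one).2.trans_lt (sub_lt_self _ (by linarith))
  have eq := fun b => ar_eq hJ (ha b) (s0 b) (s1 b)
  refine ⟨f, s, fun b => (act_fz hS hF hi ⟨σ, hσ, K.cell, K.inf⟩ (wl_fz ht b) (wl_ne hy ht b)).1,
    ha, w1, w2, s0, s1, eq, fun γ hγ => ?_⟩
  have l : ∀ b, LB (((F.J c d i m k).G e z.s).F.μ.restrict (aw z b ⁻¹' Icc (s b) (s b + 1)))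
      (fun x => ‖z.x.m.Fg ((F.J c d i m k).G e z.s).F z.x.W x‖ ^ 2)
      (192 * γ ^ 2 * v0 y + 44 * η) := fun b => by
    rw [show aw z b ⁻¹' _ = _ from eq b]
    exact ((w1 b).F γ fun x hx => hγ b x ((eq b).ge hx)).le (add_le_add_left
      (mul_le_mul_of_nonneg_left ((mul_one _).trans_le (vY_wl hy ht b)) (by positivity)) _)
  have a := ((l true).1.add_measure (l false).1)
  have le : ((F.J c d i m k).G e z.s).F.μ.restrict (⋃ b, aw z b ⁻¹' Icc (s b) (s b + 1)) ≤ _ + _ :=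
    (Measure.restrict_mono_set _ (iUnion_subset fun b => by
      cases b; exacts [subset_union_right, subset_union_left])).trans (Measure.restrict_union_le
      (aw z true ⁻¹' Icc (s true) (s true + 1)) (aw z false ⁻¹' Icc (s false) (s false + 1)))
  refine ⟨a.mono_measure le, (integral_mono_measure le (.of_forall fun _ => sq_nonneg _) a).trans ?_⟩
  rw [integral_add_measure (l true).1 (l false).1]
  linarith [(l true).2, (l false).2]

end Crest.Agent.X212.Sb67
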