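import Crest.Agent.X212.Fin37.Lvb

/-!
# Row 212, SB-UAPR (helper67): the a priori bound with one constant for a class of jobs
-/

set_option autoImplicit false
set_option linter.unusedSectionVars false
noncomputable section
open scoped Manifold ContDiff Topology InnerProductSpace
open MeasureTheory Set Function Filter

namespace Crest.Agent.X212.Sb67
open An An.Job M Nd18 Fin37 Nka63 Pat85 Cht98
open Mp86 (L4 Wts Dom NK B0 kC bd_add bd_mono)
open Dgr80 (LB en E1)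

section xk
variable {E3 : Type} [NormedAddCommGroup E3] [NormedSpace ℝ E3] [FiniteDimensional ℝ E3]
  [MeasurableSpace E3] [BorelSpace E3]
  {H3 : Type} [TopologicalSpace H3] {I3 : ModelWithCorners ℝ E3 H3} [I3.Boundaryless]
  {Y : Type} [TopologicalSpace Y] [ChartedSpace H3 Y] [IsManifold I3 ∞ Y] [T2Space Y]
  [MeasurableSpace Y] [BorelSpace Y] [SecondCountableTopology Y] [CompactSpace Y]
  {κ : Type} [Fintype κ] {lam : Type} [Fintype lam] (N : ND Y lam) (D : YD I3 Y κ lam)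

/-- the constants of a cross-section -/
structure XK (S R : ℝ) (r n : ℕ) (C : ℝ) : Prop where
  q1 : ∀ ν, |ν| ≤ R → ∀ X : NK D S,
    B0 X.B X.G ((N.smul ν).q1 X.K : Pt X.M (Option κ) lam r n) C
  en : ∃ (sz : YW I3 Y → ℝ) (C' : ℝ), |C'| ≤ C ∧ ∀ (q : YW I3 Y →₀ ℝ) (ν : ℝ) (X : NK D S)
    (c : Cfg X.M (Option κ) lam r) (σ ρ : Pt X.M (Option κ) lam r n) (e : ℝ), Nd18.Sml sz q →
    |ν| ≤ R → E1 (N.smul ν) q X c σ ρ e →
      ∫ x, X.K.cut 3 (X.K.τ x) * en X.G.F c X.K.τ x ∂X.G.F.μ ≤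
        16 * Real.pi ^ 2 * ∫ x, X.K.cut 3 (X.K.τ x) * c.m.kd X.B X.G.F c.W x ∂X.G.F.μ + C' * (1 + e)
  cut : ∀ (X : NK D S) d a z, |X.G.F.D a (fun x => X.K.cut d (X.K.τ x)) z| ≤ C
  vol : vY D ≤ C
  lv : ∀ β, N.Crit D β → |N.lv D β| ≤ C

variable {N D} in
theorem xk (h : Crt72.HY D) (hN : N.OK D) {S : ℝ} (S0 : 0 < S) (R : ℝ) (r n : ℕ) :
    ∀ᶠ C in atTop, XK N D S R r n C := by
  obtain ⟨sz, hsz⟩ := Dgr80.en1 N D h.ok hN
  obtain ⟨C, hC⟩ := hsz S S0 R r n
  obtain ⟨T, hT⟩ := cbs_cut_τ D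
  obtain ⟨L, hL⟩ := lv_bd h hN
  filter_upwards [b0_q1s (r := r) (m := n) h.ok hN S0 R, eventually_ge_atTop |C|,
    eventually_ge_atTop (T 1), eventually_ge_atTop (vY D), eventually_ge_atTop L] with k a b c d e
  exact ⟨a, ⟨sz, C, b, hC⟩, fun X t i z => ((hT X.K t).2 1 [i] le_rfl z).trans c, d,
    fun β hβ => (hL β hβ).trans e⟩

end xk

variable {Wi : Type} {X : Mf 4} {A κ lam : Type} [Fintype A] [Fintype κ] [Fintype lam]
  [DecidableEq lam] {M : Mark X A κ} {W : World M} {N : ML M lam}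
  {Λ : Lns W N} {A' h : Type} [Fintype A'] [DecidableEq A'] [Fintype h] {r n : ℕ}
  {J : Job Wi Λ A' h r n} {S R C v k₀ a : ℝ}

/-- the number of necks -/
abbrev nA (A : Type) [Fintype A] : ℝ := Fintype.card (A × Option Bool)

theorem sum_ix {c : M.Cl} {s : A' → ℝ} {f : Ix J c s → ℝ} (C0 : 0 ≤ C) (hf : ∀ i, f i ≤ C) :
    ∑ i, f i ≤ nA A * C :=
  ((Finset.sum_le_card_nsmul _ _ _ fun i _ => hf i).trans_eq (nsmul_eq_mul _ _)).trans
    (mul_le_mul_of_nonneg_right (card_le J) C0)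

variable (J S R C v k₀ a) in
/-- the constants of a job -/
structure JK : Prop where
  ok : J.OK
  S0 : 0 < S
  C0 : 0 ≤ C
  a0 : 0 ≤ a
  l4 : ∀ c s, Pm J c s → L4 (J.G c s).F.toPre S
  vol : ∀ c s, Pm J c s → (J.G c s).F.μ.real (core J c s 0) ≤ v
  ps : ∀ c s, Pm J c s → ∀ z, √(∑ t, Wz78.fP (J.B c) (J.G c s) z t ^ 2) - Wz78.sc (J.G c s) z / 4 ≤ a
  ν : ∀ c s, Pm J c s → ∀ x, |J.ν x s| ≤ R
  k : |J.k| ≤ k₀
  xk : ∀ x, XK (J.xs x).N (J.xs x).D S R r n C

variable (A κ C v) in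
/-- the volume constant -/
def vU : ℝ := max ((1 + ∑ _a : Option κ, (nA A * C) ^ 2) * (v + nA A * (C * (2 * 5))))
  (2 * v + nA A * (C * (ENNReal.ofReal (Real.exp (2 * dW A κ)) * (3 * eI (dW A κ))).toReal))

namespace JK
variable (H : JK J S R C v k₀ a)
include H

theorem cuts [DecidableEq κ] {v' : ℝ} (hv' : vU A κ C v ≤ v') (c s) (p : Pm J c s) :
    Cuts (J.B c) (J.G c s) (fun i : Ix J c s => (nk J i).τ) (th J 3) (ph J c s) v' := by
  have hJ := H.ok
  have dj := Pat85.dj hJ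
  have cp := Pat85.cpt hJ
  replace hv' := (le_max_left _ _).trans hv'
  obtain ⟨_, u⟩ := (Fin37.cuts hJ dj cp (Pat85.volJ hJ)).exists
  replace u := u c s p
  have k5 := cp c s p 5
  have m5 := (vol_core (cp c s p 0) (by norm_num : (0 : ℝ) ≤ 5)).trans (add_le_add (H.vol c s p)
    (sum_ix (C := C * (2 * 5)) (mul_nonneg H.C0 (by norm_num)) fun i =>
      mul_le_mul_of_nonneg_right (H.xk _).vol (by norm_num)))
  have sm : Sm (W.Z c).I (ph J c s) := u.ts.sm
  have p0 : ∀ z, 0 ≤ ph J c s z := fun z => sub_nonneg.2 (th_sum dj p (by norm_num) z)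
  have p1 : ∀ z, ph J c s z ≤ 1 := fun z => sub_le_self _ (Finset.sum_nonneg fun _ _ => ct_mem.1)
  have z5 : ∀ z ∉ core J c s 5, ph J c s z = 0 := fun z hz => by
    obtain ⟨i, hi⟩ := not_forall.1 hz
    exact (p0 z).antisymm' (sub_nonpos.2 (th_ge (by norm_num) (by norm_num; exact not_not.1 hi)))
  have k := fun a => ((J.G c s).F.sm_D sm a).continuous
  have q0 : 0 ≤ ∑ _a : Option κ, (nA A * C) ^ 2 := by positivity
  refine { u with l0 := ?_, l1 := ?_ }
  · exact (lb_supp (f := fun z => ph J c s z ^ 2)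
      k5.measurableSet k5.measure_ne_top m5 (sm.continuous.pow 2).aestronglyMeasurable
      (fun _ => sq_nonneg _) (by linarith) (fun z => (pow_le_one₀ (p0 z) (p1 z)).trans (by linarith))
      fun z hz => by simp [z5 z hz]).le hv'
  refine (lb_supp k5.measurableSet k5.measure_ne_top m5 (Continuous.aestronglyMeasurable
    (by fun_prop)) (fun _ => by positivity) (by linarith) (fun z => le_add_of_nonneg_of_le
      zero_le_one (Finset.sum_le_sum fun a _ => ?_)) fun z hz => ?_).le hv'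
  · have e : (J.G c s).F.D a (ph J c s) z = -∑ i : Ix J c s, (J.G c s).F.D a (th J 4 i) z := by
      unfold ph
      rw [Pre.D_def, Wz78.dv_sub' contMDiffAt_const (contMDiff_finsetSum (fun i _ => sm_th i) z),
        Wz78.dv_sum' _ fun i => sm_th i z]
      simp [Pre.D_def]
    rw [e, neg_sq, ← sq_abs]
    exact pow_le_pow_left₀ (abs_nonneg _) ((Finset.abs_sum_le_sum_abs _ _).trans
      (sum_ix H.C0 fun i => (H.xk _).cut (nX hJ H.l4 p i) 4 a z)) 2
  · have : z ∉ tsupport (ph J c s) := fun e => hz (closure_minimal (s := support (ph J c s))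
      (fun y hy => by_contra fun e => hy (z5 y e)) k5.isClosed e)
    simp [Pre.D_def, Sob92.dv_eq_zero_of_notMem this]

theorem wu : WU J J.wx S (vU A κ C v) := by
  have hJ := H.ok
  obtain ⟨_, u⟩ := An.Job.wu hJ (Pat85.volJ hJ) H.S0 H.l4
  refine { u with int := fun c s h x => ⟨(u.int c s h x).1, le_max_of_le_right ?_⟩ }
  obtain ⟨hb, ho⟩ := of_pm hJ h
  have d := dW_pos (A := A) (κ := κ)
  have k := (lintegral_mono fun z => ENNReal.ofReal_le_ofReal (wx_le (s := s) (x := x) (y := z))).trans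
    (lint_wt' (J := J) (p := J.Θ s) (x := x) d.le)
  have f1 := ENNReal.mul_ne_top (a := 2) (by simp) (off_lt hJ hb ho).ne
  have f2 := (cV_lt (J := J) d).ne
  rw [integral_eq_lintegral_of_nonneg_ae (f := J.wx c s x)
    (.of_forall fun _ => (Real.exp_pos _).le) (u.int c s h x).1.1]
  refine (ENNReal.toReal_mono (ENNReal.add_ne_top.2 ⟨f1, f2⟩) k).trans ?_
  rw [ENNReal.toReal_add f1 f2, ENNReal.toReal_mul, off_eq]
  refine add_le_add (by simpa [Measure.real] using H.vol c s h) ?_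
  rw [cV, ENNReal.toReal_sum fun i _ => ((Finset.single_le_sum (f := fun i : A × Option Bool =>
    (J.xs i.1).D.F.μ univ * _) (fun _ _ => zero_le) (Finset.mem_univ i)).trans_lt f2.lt_top).ne]
  refine (Finset.sum_le_card_nsmul _ _ _ fun i _ => ?_).trans_eq (nsmul_eq_mul _ _)
  rw [ENNReal.toReal_mul]
  exact mul_le_mul_of_nonneg_right (H.xk i.1).vol ENNReal.toReal_nonneg

theorem kb {Adm : (Wi →₀ ℝ) → Prop} (ch : CHH J Adm) : KB J C Adm := fun σ hσ c q y hq K a ha => by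
  have hL := (H.xk a).lv
  obtain ⟨_, V, -, k⟩ := ch a (H.ok.sub_hw hσ K.ov ha.1) ha.2
  have k := (k q _ _ _ _ _ _ hq (K.crit a ha false) (K.crit a ha true) (K.brk a ha)).1
  have := div_le_div_of_nonneg_right (c := 8 * Real.pi ^ 2) (b := 2 * C) (by
    linarith [abs_le.1 (hL _ (K.crit a ha false)), abs_le.1 (hL _ (K.crit a ha true))] :
      (J.xs a).N.lv (J.xs a).D (y.β a false) - (J.xs a).N.lv (J.xs a).D (y.β a true) ≤ _)
    (by positivity)
  have e : 2 * C / (8 * Real.pi ^ 2) ≤ C := by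
    rw [div_le_iff₀ (by positivity)]
    linarith [mul_le_mul_of_nonneg_left (show 2 ≤ 8 * Real.pi ^ 2 by nlinarith [Real.pi_gt_three])
      H.C0]
  rw [cE] at k
  linarith

variable (A C) in
omit H in
/-- the size of the perturbation -/
def kP : ℝ := 2 * (2 ^ Fintype.card (A × Option Bool) * (nA A * C)) + 2 * 1

theorem bdj (tz : TMSZ J) {ε : ℝ} (hε : 0 < ε) : An.Sml fun Adm => ∀ q, Adm q → ∀ c s,
    Pm J c s → ∀ w, Wts (J.G c s).F S w →
      (J.τ c q s).Bd (J.B c) (J.G c s) w (kP A C) ε (kP A C) := by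
  have hJ := H.ok
  choose K2 K3 h2 using fun w => ((eventually_ge_atTop 0).and (eventually_all.2 fun a =>
    b0_q2s (S := S) (r := r) (m := n) (hJ.xs a).1.yd (hJ.xs a).2 ((J.xs a).ty w) R)).exists
  choose k k1 hk using tz
  choose ρ hρ using fun w => bd_cell J (hJ.co w).continuous
  choose b b1 b2 b3 b4 b5 b6 using fun w => exists_b hε
    (2 * (4 * ρ w ^ 2 * (64 * k w * (4 * k w) ^ k w)) +
      2 * (2 ^ Fintype.card (A × Option Bool) * (Fintype.card (A × Option Bool) * K2 w)))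
    (2 * (ρ w * kC (k w) S) + 2 * 0) (2 * (ρ w * kC (k w) S) +
      2 * (2 ^ Fintype.card (A × Option Bool) * (Fintype.card (A × Option Bool) * K2 w))) 0 0
  refine ⟨b, fun w => zero_le_one.trans (b1 w), fun Adm hA q hq c s p w hw => ?_⟩
  have hb := (hA q hq).le
  rw [sub_zero] at hb
  exact bd_mono (bd_add ((b0_dsum H.C0 fun i hi => (H.xk i.1).q1 _ (H.ν c s p _)
    (nX hJ H.l4 p ⟨i, hi⟩)).bd w)
    (bd_fsum b1 zero_le_one (half_pos hε).le zero_le_one hb b2 b3 b4 fun i => bd_add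
      (bd_tm hw (Λ.B_ok _ _) (k1 i) (fun e => (hk i c s p e).1) (hρ i c s p))
      ((b0_dsum (K3 i) fun j hj => h2 i j.1 _ (H.ν c s p _) (nX hJ H.l4 p ⟨j, hj⟩)).bd w)))
    le_rfl (by linarith) le_rfl

variable (A κ C v k₀) in
omit H in
/-- the constant `V` of the joint bound -/
def vV : ℝ := √(82 * vU A κ C v + 96 * (nA A * C) + 512 * Real.pi ^ 2 * (k₀ + Fintype.card A * C))

variable (A κ C v k₀ a) in
omit H in
/-- the constant of the a priori bound -/
def kU : ℝ := kJ (vV A κ C v k₀) a (kP A C) (kP A C) + (k₀ + Fintype.card A * C + C)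

/-- **the a priori bound** -/
theorem apr (tz : TMSZ J) (lit : LIT J) : An.Sml fun Adm => FEN J Adm → CHH J Adm →
    ∀ σ ∈ J.𝒦, ∀ c q (y : J.Obc c), Adm q → Sol σ q y → Bnd J.wx (kU A κ C v k₀ a) y := by
  classical
  have hJ := H.ok
  have hw := H.wu
  have hS := H.l4
  have C0 := H.C0
  have k0 := (abs_nonneg _).trans H.k
  obtain ⟨_, hK⟩ := Fin37.bdj hJ hS H.S0 tz
  choose sz C' C1 hC using fun x => (H.xk x).en
  have V0 : 0 ≤ vV A κ C v k₀ := Real.sqrt_nonneg _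
  obtain ⟨ε, ε0, ε1⟩ : ∃ ε > 0, 320 * (vV A κ C v k₀ + 1) * ε = 1 :=
    ⟨_, by positivity, mul_inv_cancel₀ (by positivity)⟩
  refine (((hK ε ε0).and (H.bdj tz ε0)).and (An.Sml.all fun a => sml_q (sz a) (J.xs a).ty R)).mono
    fun Adm ⟨⟨h1, h0⟩, h2⟩ fen ch σ hσ c q y hq K => ?_
  have p : Pm J c y.s := ⟨σ, hσ, K.cell, K.inf⟩
  obtain ⟨x, gd, e⟩ := lit σ hσ c q y K
  obtain ⟨i1, -, i3, i4, i5⟩ := iso_inv (Λ.B_ok _ _) (p.ok hJ).1 (p.ok hJ).2 gd.adm K.sol.toAdm e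
  have u := H.cuts le_rfl c _ p
  have ws := hw.wts c _ p
  have wi := hw.int c _ p
  obtain ⟨_, l0⟩ := gd_le gd ws (hw.le c _) wi
  obtain ⟨b1, b2⟩ := lev_bd K (H.kb ch σ hσ c q y hq K)
  rw [abs_of_nonneg C0] at b1 b2
  have kk := H.k
  refine (u.apr ws (hw.le c _) wi K.sol (h0 q hq c _ p _ ws) H.a0 (H.ps c _ p) K.int
    (fen σ hσ c q y hq K) (k := k₀ + Fintype.card A * C) (by positivity) (by linarith) C0
    (mul_le_mul_of_nonneg_right (card_le J) C0) (fun t γ l γ1 hγ i => ?_) V0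
    ((le_max_left _ _).trans_eq Real.sq_sqrt'.symm) ε1.le (le_congr l0 i1 i4)).elim fun l1 ⟨l2, l3, g, l4, l5⟩ => ?_
  swap
  · have d : kJ (vV A κ C v k₀) a (kP A C) (kP A C) ≤ kU A κ C v k₀ a :=
      le_add_of_nonneg_right (by positivity)
    have d' : kJ (vV A κ C v k₀) a (kP A C) (kP A C) + (|J.k| + Fintype.card A * C + C) ≤
      kU A κ C v k₀ a := by unfold kU; linarith
    exact ⟨Mp86.le_mono l1 d, ⟨g, _, l4.mono d fun _ => le_rfl, l3.le d, u.fE_nonneg, fun z =>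
      ⟨(l5 z).trans (add_le_add_left d _), u.F_le K.sol.toAdm z⟩⟩, fun i => (l3.le d).mono
        (fen σ hσ c q y hq K i).1 (fun z => (u.en_le i z).1) fun z => (u.en_le i z).2, l2.trans d,
      (b2 _ l2).1.trans d', fun b hb => ((b2 _ l2).2 b hb).trans d'⟩
  · have hx : ∀ z, ‖x.Φ z‖ ^ 2 ≤ γ := fun z => i1 z ▸ hγ z
    have f := (h1 q hq c _ p _ ws).2 x t γ gd.adm (le_congr l (fun z => (i1 z).symm)
      fun z => (i4 z).symm) (by linarith) hx
    have t0 : 0 ≤ γ + (ε * t) ^ 2 := by positivity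
    rw [i3, i5 _ (nk J i).sm_τ]
    rcases isEmpty_or_nonempty (W.Z c).M with z | ⟨⟨z⟩⟩
    · simp only [integral_of_isEmpty]
      positivity
    refine (hC i.1.1 _ _ (nX hJ hS p i) x _ (fld J c q y.s) (γ ^ 2 + (γ + (ε * t) ^ 2))
      (h2 _ q hq _ (H.ν c _ p _)) (H.ν c _ p _) ⟨gd, ⟨_, amb_wts ws wi u.ex z⟩,
        sol_iso hJ hσ K gd.adm e,
        fun z hz => (tau_nk (Pat85.dj hJ) p i (Nk.dp_sub _ two_pos hz) q x).1,
        fun z hz => (tau_nk (Pat85.dj hJ) p i (Nk.dp_sub _ two_pos hz) q x).2,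
        fun z => le_add_of_le_of_nonneg ((pow_mul _ 2 2).trans_le
          (pow_le_pow_left₀ (sq_nonneg _) (hx z) 2)) t0,
        (f.mono ((sm_th (d := 2) i).continuous.aestronglyMeasurable.mul f.1.1)
          (fun _ => mul_nonneg ct_mem.1 (by positivity)) fun _ =>
            mul_le_of_le_one_left (by positivity) ct_mem.2).le (le_add_of_nonneg_left (sq_nonneg _)),
        i5 _ (nk J i).sm_τ ▸ fen σ hσ c q y hq K i, ?_⟩).trans (add_le_add_right
          (en_arith (C1 _) γ1) _)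
    exact (K.int.congr (.of_eq i3)).bdd_mul (c := 1) (sm_th (d := 3) i).continuous.aestronglyMeasurable
      (.of_forall fun _ => (abs_of_nonneg ct_mem.1).trans_le ct_mem.2)

end JK

/-! ### classes of jobs -/

/-- the cross-section without its indices -/
@[reducible] def fg (T : Xs Wi κ lam) : Xs Empty κ lam := ⟨T.Y, T.C, T.N, fun e => e.elim⟩

variable (J) in
/-- a class of jobs -/
structure UC (U : Set ℝ) (t₀ R k₀ : ℝ) (T : A → Xs Empty κ lam) : Prop where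
  ok : J.OK
  u : ∀ c s, Pm J c s → (J.Θ s).1 ∈ U
  t : ∀ c s, Pm J c s → ∀ a, ¬M.pin a → a ∉ J.m.1 → (J.Θ s).2 a ≤ t₀
  ν : ∀ c s, Pm J c s → ∀ x, |J.ν x s| ≤ R
  k : |J.k| ≤ k₀
  xs : ∀ a, fg (J.xs a) = T a

variable (Λ A' h r n) in
theorem exists_jk {U : Set ℝ} (hU : IsCompact U) {t₀ : ℝ} (ht : t₀ < 1) (R k₀ : ℝ)
    (T : A → Xs Empty κ lam) : ∃ S C v a, ∀ (Wi : Type) (J : Job Wi Λ A' h r n),
      UC J U t₀ R k₀ T → JK J S R C v k₀ a := by
  obtain ⟨S, S0, hS⟩ := Pat85.l4u W hU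
  obtain ⟨V, hV⟩ := Pat85.volU W hU ht
  obtain ⟨a, a0, ha⟩ := Ps86.pscal W Λ hU
  obtain ⟨C, C0, hC⟩ := ((eventually_ge_atTop 0).and (eventually_all.2 fun x =>
    eventually_imp_distrib_left.2 fun h1 : Crt72.HY (T x).D => eventually_imp_distrib_left.2
      fun h2 : (T x).N.OK (T x).D => xk h1 h2 S0 R r n)).exists
  refine ⟨S, C, |V|, a, fun Wi J H => ?_⟩
  have hJ := H.ok
  have pp := fun c s (p : Pm J c s) => (Pat85.pm_par hJ p).2
  refine ⟨hJ, S0, C0, a0, fun c s p => hS J.m c _ (H.u c s p) (pp c s p).1.1 (pp c s p).2,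
    fun c s p => ?_, fun c s p => ha _ _ _ (H.u c s p) (pp c s p).1.1 (pp c s p).2, H.ν, H.k,
    fun x => ?_⟩
  · obtain ⟨h2, h3⟩ := pp c s p
    refine ENNReal.toReal_le_of_le_ofReal (abs_nonneg _) ((measure_mono ?_).trans
      ((hV J.m c _ (H.u c s p) h2.1 h3 fun a hp hm => .inl (H.t c s p a hp hm)).trans
        (ENNReal.ofReal_le_ofReal (le_abs_self _))))
    refine fun z hz a hp ha => not_lt.1 fun k => ?_
    rcases ha with ha | ha
    · obtain ⟨b, hb⟩ := exists_dom (t := (J.Θ s).2 a) (.inr (hZ_ne W.toCaps ha hp z))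
      refine hz ⟨(a, some b), hp, h2, h3, ha⟩ ?_
      rw [O_zero, Pat85.nk_target hJ]; exact ⟨abs_lt.1 k, hb⟩
    · refine hz ⟨(a, none), hp, h2, h3, ha⟩ ?_
      rw [O_zero, Pat85.nk_target hJ]; exact ⟨abs_lt.1 k, .inl (h3 a ha.2.1)⟩
  · have k := hC x
    rw [← H.xs x] at k
    exact k (hy hJ x) (hJ.xs x).2

end Crest.Agent.X212.Sb67
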