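import Crest.Agent.X212.Sb67.Ua
import Crest.Agent.X212.Nd18.Gj
import Crest.Agent.X212.Tms63.Main
import Crest.Agent.X212.Lit63.Main

/-!
# Row 212, SB-WIN (helper67): windows of small energy on long necks
-/

set_option autoImplicit false
set_option linter.unusedSectionVars false
noncomputable section
open scoped Manifold ContDiff Topology InnerProductSpace
open MeasureTheory Set Function Filter Classical

namespace Crest.Agent.X212.Sb67
open An An.Job M Nd18 Fin37 Nka63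
open Dgr80 (LB en)

theorem lb_on {X : Type*} [MeasurableSpace X] {μ : Measure X} {O : Set X} {g g' : X → ℝ} {a : ℝ}
    (h : LB (μ.restrict O) g a) (hO : MeasurableSet O) (hm : AEStronglyMeasurable g' (μ.restrict O))
    (k : ∀ x ∈ O, 0 ≤ g' x ∧ g' x ≤ g x) : LB (μ.restrict O) g' a :=
  have e := ae_restrict_of_forall_mem (μ := μ) hO k
  have i := h.1.mono' hm (e.mono fun _ u => (Real.norm_of_nonneg u.1).trans_le u.2)
  ⟨i, (integral_mono_ae i h.1 (e.mono fun _ u => u.2)).trans h.2⟩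

theorem lb_res {X : Type*} [MeasurableSpace X] {μ : Measure X} (O : Set X) {g : X → ℝ} {a : ℝ}
    (h : LB μ g a) (g0 : ∀ x, 0 ≤ g x) : LB (μ.restrict O) g a :=
  ⟨h.1.restrict, (setIntegral_le_integral h.1 (.of_forall g0)).trans h.2⟩

/-- the pigeonhole principle -/
theorem exists_win {X : Type*} [MeasurableSpace X] {μ : Measure X} {t g : X → ℝ} {E η d ℓ : ℝ}
    (ht : Measurable t) (h : LB μ g E) (g0 : ∀ x, 0 ≤ g x) (hℓ : 0 ≤ ℓ) {m : ℕ} (hm : E < m * η) :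
    ∃ s, d ≤ s ∧ s + ℓ ≤ d + m * (ℓ + 1) ∧ LB (μ.restrict (t ⁻¹' Icc s (s + ℓ))) g η := by
  by_contra k
  have e := integral_biUnion_finset (μ := μ) (f := g) (Finset.range m)
    (s := fun j => t ⁻¹' Icc (d + j * (ℓ + 1)) (d + j * (ℓ + 1) + ℓ))
    (fun _ _ => ht measurableSet_Icc) (fun i _ j _ u => Disjoint.preimage _ ?_)
    fun _ _ => h.1.integrableOn
  · have := Finset.card_nsmul_le_sum (Finset.range m) (fun j : ℕ =>
      ∫ x in t ⁻¹' Icc (d + j * (ℓ + 1)) (d + j * (ℓ + 1) + ℓ), g x ∂μ) η fun j hj =>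
        le_of_not_ge fun u => k ⟨_, le_add_of_nonneg_right (by positivity), by
          have : (j : ℝ) + 1 ≤ m := by exact_mod_cast Finset.mem_range.1 hj
          nlinarith, h.1.restrict, u⟩
    rw [Finset.card_range, nsmul_eq_mul, ← e] at this
    linarith [setIntegral_le_integral (s := ⋃ j ∈ Finset.range m,
      t ⁻¹' Icc (d + j * (ℓ + 1)) (d + j * (ℓ + 1) + ℓ)) h.1 (.of_forall g0), h.2]
  · refine disjoint_left.2 fun x a b => ?_
    rcases lt_or_gt_of_ne u with u | u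
    · have : (i : ℝ) + 1 ≤ j := by exact_mod_cast u
      nlinarith [a.2, b.1]
    · have : (j : ℝ) + 1 ≤ i := by exact_mod_cast u
      nlinarith [a.1, b.2]

theorem sml_scale {Wi : Type} {P : (Wi →₀ ℝ) → Prop} (h : An.Sml fun Adm => ∀ q, Adm q → P q)
    (t : ℝ) : An.Sml fun Adm => ∀ q, Adm q → P (t • q) := by
  obtain ⟨b, b0, hb⟩ := h
  refine ⟨fun w => |t| * b w, fun w => mul_nonneg (abs_nonneg _) (b0 w),
    fun Adm hA q hq => hb (Ball b 0) (fun _ => id) _ ?_⟩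
  have := hA q hq
  rw [Ball, sub_zero] at this ⊢
  rw [Finsupp.sum_smul_index (by simp)]
  simpa only [abs_mul, mul_assoc, mul_left_comm |t|] using this

section job
variable {Wi : Type} {X : Mf 4} {A κ lam : Type} [Fintype A] [Fintype κ] [Fintype lam]
  [DecidableEq lam] {M : Mark X A κ} {W : World M} {N : ML M lam}
  {Λ : Lns W N} {A' h : Type} [Fintype A'] [DecidableEq A'] [Fintype h] {r n : ℕ}
  {J : Job Wi Λ A' h r n} {S R C v k₀ a : ℝ} {c : M.Cl}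

/-- the measure of the window `[s, s + ℓ]` of the neck -/
abbrev wμ {p : A' → ℝ} (i : Ix J c p) (s ℓ : ℝ) : Measure (W.Z c).M :=
  (J.G c p).F.μ.restrict ((nk J i).tm ⁻¹' Icc s (s + ℓ))

/-- a window with energy `≤ η` at depth `≥ d` -/
structure Wn (y : J.Obc c) (i : Ix J c y.s) (d ℓ η s : ℝ) : Prop where
  dp : Icc s (s + ℓ) ⊆ Dp (nk J i).p (nk J i).q d
  en : LB (wμ i s ℓ) (en (J.G c y.s).F y.x (nk J i).τ) η
  F : ∀ γ, (∀ z, (nk J i).tm z ∈ Icc s (s + ℓ) → ‖y.x.Φ z‖ ^ 2 ≤ γ) →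
    LB (wμ i s ℓ) (fun z => ‖y.x.m.Fg (J.G c y.s).F y.x.W z‖ ^ 2)
      (192 * γ ^ 2 * (vY (J.xs i.1.1).D * ℓ) + 44 * η)

variable (J) in
/-- the field terms are small -/
def FS (η : ℝ) (q : Wi →₀ ℝ) (y : J.Obc c) : Prop := LB (J.G c y.s).F.μ
  (fun z => ‖(fld J c q y.s).D y.x z‖ ^ 2 + ‖(fld J c q y.s).C y.x z‖ ^ 2) η

namespace JK
variable (H : JK J S R C v k₀ a)
include H

theorem apr' : An.Sml fun Adm => FEN J Adm → CHH J Adm →
    ∀ σ ∈ J.𝒦, ∀ c q (y : J.Obc c), Adm q → Sol σ q y → Bnd J.wx (kU A κ C v k₀ a) y :=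
  H.apr (Tms63.tmsz H.ok) (Lit63.litJ H.ok)

/-- **small field terms** -/
theorem fs {η : ℝ} (η0 : 0 < η) : An.Sml fun Adm => FEN J Adm → CHH J Adm →
    ∀ σ ∈ J.𝒦, ∀ c q (y : J.Obc c), Adm q → Sol σ q y → FS J η q y := by
  obtain ⟨_, hK⟩ := Fin37.bdj H.ok H.l4 H.S0 (Tms63.tmsz H.ok)
  have k := H.apr'
  generalize kU A κ C v k₀ a = E at k
  obtain ⟨t, t0, ht⟩ := ((eventually_gt_atTop 0).and ((tendsto_pow_atTop (α := ℝ)
    two_ne_zero).eventually_ge_atTop ((E + (1 * E) ^ 2) / η))).exists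
  refine ((sml_scale (hK 1 one_pos) t).and k).mono fun Adm ⟨h1, h2⟩ f ch σ hσ c q y hq K => ?_
  have p : Pm J c y.s := ⟨σ, hσ, K.cell, K.inf⟩
  have l := (h2 f ch σ hσ c q y hq K).le
  have u := ((h1 q hq c _ p _ (H.wu.wts c _ p)).2 y.x E E K.sol.toAdm l (zero_le_one.trans l.one)
    l.Φ).mul (c := (t ^ 2)⁻¹) (by positivity)
  refine Dgr80.LB.le ?_ (show (t ^ 2)⁻¹ * (E + (1 * E) ^ 2) ≤ η by
    rw [inv_mul_le_iff₀ (by positivity)]; exact (div_le_iff₀ η0).1 ht)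
  convert u using 2 with z
  simp only [fld, fsum_smul_D, fsum_smul_C, norm_smul, mul_pow, Real.norm_eq_abs, sq_abs]
  field_simp

end JK

/-- **a window** -/
theorem win (hJ : J.OK) {σ q} {y : J.Obc c} (hσ : σ ∈ J.𝒦) (K : Sol σ q y) {E η d ℓ : ℝ}
    (b : Bnd J.wx E y) (f : FS J η q y) {x : A} (ha : Act J.m c x none (J.Θ y.s)) (hx : Nl J x)
    (hd : 4 ≤ d) (hℓ : 0 ≤ ℓ) {m : ℕ} (hm : E < m * η) {s₀ : ℝ} (h0 : d ≤ s₀)
    (hL : s₀ + m * (ℓ + 1) + d ≤ nl ((J.Θ y.s).2 x)) :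
    ∃ s, s₀ ≤ s ∧ s + ℓ ≤ s₀ + m * (ℓ + 1) ∧ Wn y ⟨(x, none), ha⟩ d ℓ η s := by
  set i : Ix J c y.s := ⟨(x, none), ha⟩
  have p : Pm J c y.s := ⟨σ, hσ, K.cell, K.inf⟩
  have hG := (p.ok hJ).1
  have e0 := Dgr80.en_nonneg (J.G c y.s).F y.x (nk J i).τ
  obtain ⟨s, s1, s2, s3⟩ := exists_win (d := s₀) (nk J i).cont.measurable (b.en i)
    (fun z => mul_nonneg ct_mem.1 (e0 z)) hℓ hm
  have dp : Icc s (s + ℓ) ⊆ Dp (nk J i).p (nk J i).q d := fun u hu => by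
    have k := hJ.nk c x none _ ha
    rw [show (nk J i).p = _ from k.lo, show (nk J i).q = _ from k.hi]
    exact ⟨fun a e => by
      obtain rfl : 0 = a := by simpa using e
      linarith [hu.1], fun a e => by
      obtain rfl : nl ((J.Θ y.s).2 x) = a := by simpa using e
      linarith [hu.2]⟩
  have mO : MeasurableSet ((nk J i).tm ⁻¹' Icc s (s + ℓ)) :=
    (nk J i).cont.measurable measurableSet_Icc
  have d4 : ∀ z ∈ (nk J i).tm ⁻¹' Icc s (s + ℓ), z ∈ (nk J i).dp (3 + 1) := fun z hz =>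
    Dp_mono (by linarith) (dp hz)
  have e1 : LB (wμ i s ℓ) (en (J.G c y.s).F y.x (nk J i).τ) η :=
    have u : (fun z => (nk J i).cut 3 ((nk J i).τ z) * en (J.G c y.s).F y.x (nk J i).τ z)
        =ᵐ[wμ i s ℓ] en (J.G c y.s).F y.x (nk J i).τ := ae_restrict_of_forall_mem mO fun z hz => by
      simp only [cut_τ_one _ (by norm_num : (0 : ℝ) ≤ 3) (d4 z hz), one_mul]
    ⟨s3.1.congr u, (integral_congr_ae u).ge.trans s3.2⟩
  refine ⟨s, s1, s2, dp, e1, fun γ hγ => ?_⟩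
  have sub : Icc s (s + ℓ) ⊆ (nk J i).J := dp.trans (Dp_sub (by linarith))
  have m1 := measure_slab (nk J i) measurableSet_Icc sub
  have := (J.xs x).D.F.fin
  have l0 : LB (wμ i s ℓ) (fun _ => 1) (vY (J.xs x).D * ℓ) := by
    refine ⟨integrableOn_const (m1.trans_ne (ENNReal.mul_ne_top (measure_ne_top _ _) (by simp))), ?_⟩
    rw [integral_const, measureReal_def, Measure.restrict_apply_univ, m1, ENNReal.toReal_mul]
    simp only [Real.volume_Icc, add_sub_cancel_left, ENNReal.toReal_ofReal hℓ, smul_eq_mul, mul_one]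
    exact le_rfl
  refine (lb_on (((l0.mul (c := 192 * γ ^ 2) (by positivity)).add
    ((lb_res _ f fun _ => by positivity).mul (c := 12) (by norm_num))).add
      (e1.mul (c := 32) (by norm_num))) mO ((Mp86.sm_Fg (Λ.B_ok _ _) hG K.sol.ok
        K.sol.conn).continuous.norm.pow 2).aestronglyMeasurable fun z hz =>
          ⟨sq_nonneg _, ?_⟩).le (le_of_eq (by ring))
  have u1 := pn_F (pn (d := 1) (nk J i) (hJ.xs x).1.yd (Λ.B_ok _ _) hG le_rfl) K.sol.toAdm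
    (dp_sub_O _ (by norm_num) (d4 z hz))
  have u2 := (Mp86.solOn_of_sol K.sol).norm_p2_sq (Λ.B_ok _ _) (mem_univ z)
  have u3 := (tau_nk (Pat85.dj hJ) p i (Nk.dp_sub _ (by norm_num) (d4 z hz)) q y.x).2
  have u4 : (J.xs x).q q = 0 := by simp [Xs.q, hx.2]
  rw [show (J.xs i.1.1).q q = 0 from u4, smul_zero, (hx.1.smul _).pt] at u3
  rw [u3, show (Ink3.pz : Pt _ _ _ r n).C y.x z = 0 from rfl, zero_add] at u2
  refine u1.trans ?_
  linarith [pow_le_pow_left₀ (sq_nonneg _) (hγ z hz) 2, sq_nonneg ‖(fld J c q y.s).D y.x z‖]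

end job

/-! ### prisms -/

open G75 Jb7 Ins26
open Br55 (CN)

variable {κ lam : Type} [Fintype κ] [Fintype lam] [DecidableEq lam] {Lm : LM κ lam}
  {y : G75.YD κ lam} {S : Scene Lm} {t : TD y S} {N : ND (yY y).M (lam ⊕ lam)} {n : ℕ} {D : S.Dat}
  {F : Pr t N n D} {c : Cn S.L S.A} {d m : ℕ} {i : S.L} {k : Fin (n + 1)} {T : ℝ}

variable (t N i) in
/-- the cross-sections of the prisms -/
def xP (x : S.A) : Xs Empty κ lam :=
  if x = t.a then ⟨yY y, y.N.cy y.a, N, fun e => e.elim⟩ else fg (Ink3.xs0 Empty (S.N i) x)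

theorem th_ne (s : S.A ⊕ Unit → ℝ) {x : S.A} (e : x ≠ t.a) :
    (F.Θ s).2 x = thS (hard S ∅) ↑S.fz (fun _ _ => F.T) s x := update_of_ne e ..

theorem uc (ha : t.a ∈ S.fz) (hF : F.OK c d T) (hi : c i ≠ 0) :
    UC (F.J c d i m k) {0} 0 1 |kz S i (m - k) (-d)| (xP t N i) where
  ok := (hF.J i hi m k).1
  u _ _ _ := rfl
  t _ s _ x hp hm := by
    have u : x ∉ S.fz ∧ x ∉ S.ls := by
      simpa using mt (fun e => hF.mem (Finset.mem_coe.2 e)) hm
    exact ((th_ne s fun e => u.1 (by rw [e]; exact ha)).trans ((if_neg (mt Finset.mem_coe.1 u.1)).trans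
      (if_neg fun e => e.elim hp fun e => e.elim u.2 (by simp)))).le
  ν _ s _ x := by
    have e : ∀ u, |Real.smoothTransition u| ≤ 1 := fun u =>
      (abs_of_nonneg (Real.smoothTransition.nonneg u)).trans_le (Real.smoothTransition.le_one u)
    dsimp only
    split_ifs
    exacts [e _, e _, by simp]
  k := le_rfl
  xs x := by
    by_cases e : x = t.a
    · subst e
      exact (congrArg fg (F.xs_a i)).trans (if_pos rfl).symm
    · exact (congrArg fg (F.xs_ne i e)).trans (if_neg e).symm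

theorem nl_ne {x : S.A} (e : x ≠ t.a) : Nl (F.J c d i m k) x := by
  unfold Nl
  rw [show (F.J c d i m k).xs x = _ from F.xs_ne i e]
  exact ⟨Ink3.nd0_nil, rfl⟩

/-- the frozen necks other than `a` are active -/
theorem act_fz (hS : S.OK) (hF : F.OK c d T) (hi : c i ≠ 0) {e : S.M.Cl} {s}
    (p : Pm (F.J c d i m k) e s) {x : S.A} (hx : x ∈ S.fz) (ne : x ≠ t.a) :
    (F.Θ s).2 x = F.T ∧ Act F.m e x none (F.Θ s) := by
  have hJ := (hF.J i hi m k).1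
  have u : (F.Θ s).2 x = F.T := (th_ne s ne).trans (if_pos (Finset.mem_coe.2 hx))
  obtain ⟨-, h2, h3⟩ := Pat85.pm_par hJ p
  have T1 := hF.T.2
  obtain ⟨_, -, -, p3⟩ := p
  have n1 : x ∉ e.1 := fun j => T1.2.ne (u.symm.trans (h2.2 j))
  exact ⟨u, (hS.fz x hx).1, h2, h3, hF.mem (by simp [hx]), ⟨n1, fun z hz => h2.1.2
    (by rw [mem_support, show ((F.J c d i m k).Θ s).2 x = _ from u]; linarith)
    (Sys.inf_subset _ (h2.2 hz)) fun j => n1 (j ▸ hz)⟩, u.symm ▸ by linarith⟩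

variable (t N n D c d m k) in
/-- **UAPR for prisms** -/
theorem exists_jkP (ha : t.a ∈ S.fz) (i : S.L) : ∃ S' C v a, ∀ (F : Pr t N n D) T, F.OK c d T →
    c i ≠ 0 → JK (F.J c d i m k) S' 1 C v |kz S i (m - k) (-d)| a :=
  let ⟨S', C, v, a, h⟩ := exists_jk (D.Λ i) (S.A ⊕ Unit) S.ls (m - k + 1 + n) n isCompact_singleton
    one_pos 1 |kz S i (m - k) (-d)| (xP t N i)
  ⟨S', C, v, a, fun _ _ hF hi => h _ _ (uc ha hF hi)⟩

variable (F c d i m k) in
/-- windows on all frozen necks other than `a`; small field terms -/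
def WinAt (d₀ ℓ η : ℝ) (Adm : (F.Wi →₀ ℝ) → Prop) : Prop := ∀ σ ∈ cls c i, ∀ e q
  (z : (F.J c d i m k).Obc e), Adm q → Sol σ q z → FS _ η q z ∧ ∀ x ∈ S.fz, x ≠ t.a →
    ∃ ha : Act F.m e x none (F.Θ z.s), ∀ b : Bool, ∃ s, Wn z ⟨(x, none), ha⟩ d₀ ℓ η s ∧
      bif b then nl F.T / 2 < s else s + ℓ < nl F.T / 2

variable (t N n D c d m k) in
/-- **SB-WIN** -/
theorem winP (hS : S.OK) (ha : t.a ∈ S.fz) {d₀ ℓ η : ℝ} (hd : 4 ≤ d₀) (hℓ : 0 ≤ ℓ) (η0 : 0 < η) :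
    ∀ᶠ T in 𝓝[<] (1 : ℝ), ∀ F : Pr t N n D, F.OK c d T → ∀ i, c i ≠ 0 → An.Sml fun Adm =>
      FEN (F.J c d i m k) Adm → CHH (F.J c d i m k) Adm → WinAt F c d m i k d₀ ℓ η Adm := by
  choose S' C v a h using exists_jkP t N n D c d m k ha
  choose j hj using fun i => exists_nat_gt (JK.kU S.A κ (C i) (v i) |kz S i (m - k) (-d)| (a i) / η)
  have ev := (eventually_all.2 fun i => tendsto_nl.eventually_ge_atTop
    (2 * (d₀ + j i * (ℓ + 1)) + 1))
  obtain ⟨T₀, T1, ev⟩ := (nhdsLT_basis (1 : ℝ)).eventually_iff.1 ev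
  filter_upwards [Ioo_mem_nhdsLT T1] with T hT F hF i hi
  have H := h i F T hF hi
  refine (H.apr'.and (H.fs η0)).mono fun Adm ⟨h1, h2⟩ f ch σ hσ e q z hq K =>
    ⟨h2 f ch σ hσ e q z hq K, fun x hx ne => ?_⟩
  obtain ⟨u, ac⟩ := act_fz hS hF hi ⟨σ, hσ, K.cell, K.inf⟩ hx ne
  have L := ev ⟨hT.1.trans_le hF.T.1, hF.T.2.2⟩ i
  have j0 : 0 ≤ j i * (ℓ + 1) := by positivity
  have w := fun s₀ h0 (hL : _ ≤ nl F.T) => win H.ok hσ K (h1 f ch σ hσ e q z hq K) (h2 f ch σ hσ e q z hq K) ac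
    (nl_ne ne) hd hℓ ((div_lt_iff₀ η0).1 (hj i)) (s₀ := s₀) h0 (hL.trans_eq (congrArg nl u.symm))
  refine ⟨ac, fun b => ?_⟩
  cases b
  · obtain ⟨s, -, s2, s3⟩ := w d₀ le_rfl (by linarith)
    exact ⟨s, s3, show s + ℓ < _ by linarith⟩
  · obtain ⟨s, s1, -, s3⟩ := w (nl F.T - d₀ - j i * (ℓ + 1)) (by linarith) (by linarith)
    exact ⟨s, s3, show _ < s by linarith⟩

end Crest.Agent.X212.Sb67
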