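import Crest.Agent.X212.Sb67.W1
import Crest.Agent.X212.St29.SbD

/-!
# Row 212, SB-WIN (helper67): the leaf `St29.Sb.WinStmt`
-/

set_option autoImplicit false

namespace Crest.Agent.X212.Sb67

theorem winStmt {κ lam : Type} [Fintype κ] [Fintype lam] [DecidableEq lam] (Lm : G75.LM κ lam) :
    St29.Sb.WinStmt Lm := fun _ P hP _ _ _ _ d D n m k ht hc =>
  (w1P hP.y ht hc.ok P.N n D d m k).mono fun _ w Z hZ => w Z.F hZ.F Z.i Z.σ Z.τ Z.e hZ.c hZ.sub

end Crest.Agent.X212.Sb67
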